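import Mathlib

/-!
# Square-zero elements in corners of simple unital C⋆-algebras

`B` is a closed star subalgebra, simple as a ring and infinite dimensional.
For `e ∈ B` fixing some nonzero element of `B` from the left, there is a nonzero square-zero
element `z ∈ B` with `e * z = z` and `z * e = z` for self-adjoint `e`.
-/

namespace Vale.Agent.P070

variable {A : Type*} [CStarAlgebra A]

/-- A bump around `l`, vanishing near zero. -/
noncomputable def bump (l r : ℝ) (t : ℝ) : ℝ := max 0 (r - |t - l|)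

/-- `bump` divided by `t ^ 2`. -/
noncomputable def bumpDiv (l r : ℝ) (t : ℝ) : ℝ := bump l r t / max (t ^ 2) (l ^ 2 / 4)

lemma continuous_bump (l r : ℝ) : Continuous (bump l r) := by
  unfold bump; fun_prop

lemma continuous_bumpDiv {l : ℝ} (hl : l ≠ 0) (r : ℝ) : Continuous (bumpDiv l r) := by
  unfold bumpDiv
  refine (continuous_bump l r).div₀ (by fun_prop) fun t => ?_
  have : 0 < l ^ 2 / 4 := by positivity
  exact ne_of_gt (lt_max_of_lt_right this)

lemma sq_mul_bumpDiv {l r : ℝ} (hl : l ≠ 0) (hr : r ≤ |l| / 2) (t : ℝ) :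
    t * bumpDiv l r t * t = bump l r t := by
  unfold bumpDiv
  rcases eq_or_lt_of_le (le_max_left (0 : ℝ) (r - |t - l|)) with h | h
  · unfold bump; rw [← h]; simp
  · have h2 : |t - l| < r := by
      rcases lt_max_iff.1 h with h' | h'
      · exact absurd h' (lt_irrefl _)
      · linarith
    have h3 : |l| / 2 ≤ |t| := by
      have := abs_sub_abs_le_abs_sub l t
      rw [abs_sub_comm] at this
      linarith
    have h4 : l ^ 2 / 4 ≤ t ^ 2 := by
      nlinarith [abs_nonneg l, abs_nonneg t, sq_abs l, sq_abs t]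
    rw [max_eq_left h4]
    have : t ≠ 0 := by
      intro h0
      rw [h0] at h4
      have : 0 < l ^ 2 := by positivity
      linarith
    field_simp

variable (B : StarSubalgebra ℂ A) (hB : IsClosed (B : Set A))

include hB in
lemma cfc_mem_B (f : ℝ → ℝ) {a : A} (ha : a ∈ B) : cfc f a ∈ B :=
  cfc_mem (hs := hB) (𝕜' := ℂ) f ha

variable [IsSimpleRing B]

/-- Primeness of a simple ring. -/
lemma exists_mid_ne_zero {f g : A} (hf : f ∈ B) (hg : g ∈ B) (hf0 : f ≠ 0) (hg0 : g ≠ 0) :
    ∃ x ∈ B, f * x * g ≠ 0 := by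
  by_contra hcon
  push Not at hcon
  let I : TwoSidedIdeal B := TwoSidedIdeal.mk' {y : B | ∀ x ∈ B, f * x * (y : A) = 0}
    (by intro x _; simp)
    (by intro y y' h h' x hx; simp [mul_add, h x hx, h' x hx])
    (by intro y h x hx; simp [h x hx])
    (by intro w y h x hx
        have := h (x * (w : A)) (mul_mem hx w.2)
        simpa [mul_assoc] using this)
    (by intro y w h x hx
        have := h x hx
        simp [← mul_assoc, this])
  have hgI : (⟨g, hg⟩ : B) ∈ I := by
    simp only [I, TwoSidedIdeal.mem_mk']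
    exact hcon
  have hI : I = ⊤ := by
    rcases eq_bot_or_eq_top I with h | h
    · rw [h, TwoSidedIdeal.mem_bot] at hgI
      exact absurd (congrArg Subtype.val hgI) hg0
    · exact h
  have h1 : (1 : B) ∈ I := hI ▸ trivial
  simp only [I, TwoSidedIdeal.mem_mk', Set.mem_ofPred_eq] at h1
  apply hf0
  simpa using h1 1 (one_mem B)

include hB in
/-- Two distinct nonzero spectral values of a self-adjoint element fixed by `e` give a square-zero
element in the corner of `e`. -/
lemma exists_sq_zero_of_two_values {e a : A} (he : IsSelfAdjoint e) (ha : a ∈ B)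
    (has : IsSelfAdjoint a) (hea : e * a = a) {l m : ℝ} (hl : l ∈ spectrum ℝ a)
    (hm : m ∈ spectrum ℝ a) (hl0 : l ≠ 0) (hm0 : m ≠ 0) (hlm : l ≠ m) :
    ∃ z ∈ B, z ≠ 0 ∧ z * z = 0 ∧ e * z = z ∧ z * e = z := by
  set r : ℝ := min (min (|l| / 2) (|m| / 2)) (|l - m| / 2) with hr
  have hrpos : 0 < r := by
    have h1 : 0 < |l| := abs_pos.2 hl0
    have h2 : 0 < |m| := abs_pos.2 hm0
    have h3 : 0 < |l - m| := abs_pos.2 (sub_ne_zero.2 hlm)
    rw [hr]; simp only [lt_min_iff]; refine ⟨⟨?_, ?_⟩, ?_⟩ <;> linarith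
  have hrl : r ≤ |l| / 2 := le_trans (min_le_left _ _) (min_le_left _ _)
  have hrm : r ≤ |m| / 2 := le_trans (min_le_left _ _) (min_le_right _ _)
  have hrlm : r ≤ |l - m| / 2 := min_le_right _ _
  set f := cfc (bump l r) a with _hf
  set g := cfc (bump m r) a with hg
  have hcl := (continuous_bumpDiv hl0 r).continuousOn (s := spectrum ℝ a)
  have hcm := (continuous_bumpDiv hm0 r).continuousOn (s := spectrum ℝ a)
  have hfa : f = a * cfc (bumpDiv l r) a * a := by
    have h0 : f = cfc (fun t => t * bumpDiv l r t * t) a :=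
      cfc_congr fun t _ => (sq_mul_bumpDiv hl0 hrl t).symm
    rw [h0, cfc_mul (fun t => t * bumpDiv l r t) (fun t => t) a,
      cfc_mul (fun t => t) (bumpDiv l r) a, cfc_id' ℝ a]
  have hga : g = a * cfc (bumpDiv m r) a * a := by
    have h0 : g = cfc (fun t => t * bumpDiv m r t * t) a :=
      cfc_congr fun t _ => (sq_mul_bumpDiv hm0 hrm t).symm
    rw [h0, cfc_mul (fun t => t * bumpDiv m r t) (fun t => t) a,
      cfc_mul (fun t => t) (bumpDiv m r) a, cfc_id' ℝ a]
  have hae : a * e = a := by
    have := congrArg star hea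
    rwa [star_mul, he.star_eq, has.star_eq] at this
  have hgf : g * f = 0 := by
    rw [_hf, hg, ← cfc_mul (bump m r) (bump l r) a (continuous_bump m r).continuousOn
      (continuous_bump l r).continuousOn]
    rw [← cfc_zero ℝ a]
    refine cfc_congr fun t _ => ?_
    simp only [bump, Pi.zero_apply]
    by_cases h : |t - l| < r
    · have : r ≤ |t - m| := by
        have := abs_sub_le l t m
        rw [abs_sub_comm l t] at this
        linarith
      rw [max_eq_left (by linarith : r - |t - m| ≤ 0)]; simp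
    · rw [max_eq_left (by linarith : r - |t - l| ≤ 0)]; simp
  have hne : ∀ k : ℝ, k ∈ spectrum ℝ a → cfc (bump k r) a ≠ 0 := by
    intro k hk h0
    have := eqOn_of_cfc_eq_cfc (R := ℝ) (a := a) (f := bump k r) (g := 0)
      (by rw [h0, cfc_zero]) (continuous_bump k r).continuousOn continuousOn_const has hk
    simp only [bump, sub_self, abs_zero, sub_zero, Pi.zero_apply] at this
    rw [max_eq_right hrpos.le] at this
    linarith
  obtain ⟨x, hx, hx0⟩ := exists_mid_ne_zero B (cfc_mem_B B hB (bump l r) ha)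
    (cfc_mem_B B hB (bump m r) ha) (hne l hl) (hne m hm)
  refine ⟨f * x * g, mul_mem (mul_mem (cfc_mem_B B hB _ ha) hx) (cfc_mem_B B hB _ ha), hx0, ?_, ?_,
    ?_⟩
  · rw [show f * x * g * (f * x * g) = f * x * (g * f) * x * g by simp only [mul_assoc], hgf]
    simp
  · rw [hfa]; simp only [← mul_assoc, hea]
  · rw [hga]; simp only [mul_assoc, hae]

variable (hinf : ¬ FiniteDimensional ℂ B)

include hinf in
/-- A unital simple infinite dimensional algebra has no minimal idempotent. -/
lemma exists_not_scalar_corner {p : A} (hp : p ∈ B) (hp0 : p ≠ 0) :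
    ∃ x ∈ B, ∀ c : ℂ, p * x * p ≠ c • p := by
  by_contra hcon
  push Not at hcon
  choose c hc using hcon
  let F : B × B → B := fun q => q.1 * ⟨p, hp⟩ * q.2
  let I : TwoSidedIdeal B := TwoSidedIdeal.mk'
    (Submodule.span ℂ (Set.range F) : Set B)
    (zero_mem _) (fun h h' => add_mem h h') (fun h => neg_mem h)
    (by intro x y hy
        induction hy using Submodule.span_induction with
        | mem y hy =>
          obtain ⟨⟨u, v⟩, rfl⟩ := hy
          refine Submodule.subset_span ⟨(x * u, v), ?_⟩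
          simp [F, mul_assoc]
        | zero => simp
        | add y z _ _ h h' => rw [mul_add]; exact add_mem h h'
        | smul k y _ h => rw [mul_smul_comm]; exact Submodule.smul_mem _ k h)
    (by intro x y hx
        induction hx using Submodule.span_induction with
        | mem x hx =>
          obtain ⟨⟨u, v⟩, rfl⟩ := hx
          refine Submodule.subset_span ⟨(u, v * y), ?_⟩
          simp [F, mul_assoc]
        | zero => simp
        | add x z _ _ h h' => rw [add_mul]; exact add_mem h h'
        | smul k x _ h => rw [smul_mul_assoc]; exact Submodule.smul_mem _ k h)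
  have hpI : (⟨p, hp⟩ : B) ∈ I := by
    simp only [I, TwoSidedIdeal.mem_mk', SetLike.mem_coe]
    exact Submodule.subset_span ⟨(1, 1), by simp [F]⟩
  have h1 : (1 : B) ∈ I := by
    rcases eq_bot_or_eq_top I with h | h
    · rw [h, TwoSidedIdeal.mem_bot] at hpI
      exact absurd (congrArg Subtype.val hpI) hp0
    · rw [h]; trivial
  simp only [I, TwoSidedIdeal.mem_mk', SetLike.mem_coe] at h1
  obtain ⟨k, hk⟩ := Finsupp.mem_span_range_iff_exists_finsupp.1 h1
  apply hinf
  classical
  refine ⟨((k.support ×ˢ k.support).image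
    (fun q : (B × B) × (B × B) => q.1.1 * ⟨p, hp⟩ * q.2.2)), ?_⟩
  refine eq_top_iff.2 fun z _ => ?_
  have hz : z = (∑ i ∈ k.support, k i • F i) * z * (∑ j ∈ k.support, k j • F j) := by
    have h0 : (∑ i ∈ k.support, k i • F i) = 1 := hk
    rw [h0, one_mul, mul_one]
  rw [hz, Finset.sum_mul, Finset.sum_mul]
  refine Submodule.sum_mem _ fun i hi => ?_
  rw [Finset.mul_sum]
  refine Submodule.sum_mem _ fun j hj => ?_
  rw [smul_mul_assoc, smul_mul_assoc, mul_smul_comm]
  refine Submodule.smul_mem _ _ (Submodule.smul_mem _ _ ?_)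
  have hmid : F i * z * F j = c _ (mul_mem (mul_mem i.2.2 z.2) j.1.2) •
      (i.1 * ⟨p, hp⟩ * j.2) := by
    ext
    simp only [F, MulMemClass.coe_mul, SetLike.val_smul]
    have := hc _ (mul_mem (mul_mem i.2.2 z.2) j.1.2)
    calc (i.1 : A) * p * i.2 * z * (j.1 * p * j.2)
        = i.1 * (p * (i.2 * z * j.1) * p) * j.2 := by simp only [mul_assoc]
      _ = _ := by rw [this, mul_smul_comm, smul_mul_assoc]
  rw [hmid]
  exact Submodule.smul_mem _ _ (Submodule.subset_span
    (Finset.mem_coe.2 (Finset.mem_image.2 ⟨(i, j), Finset.mk_mem_product hi hj, rfl⟩)))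

include hB in
/-- A self-adjoint element which has at most one nonzero spectral value squares to a multiple of
itself. -/
lemma mul_self_eq_smul_of_not_two {e a : A} (he : IsSelfAdjoint e) (ha : a ∈ B)
    (has : IsSelfAdjoint a) (hea : e * a = a)
    (hno : ¬ ∃ z ∈ B, z ≠ 0 ∧ z * z = 0 ∧ e * z = z ∧ z * e = z) :
    ∃ l : ℝ, a * a = l • a := by
  by_cases h : ∃ l ∈ spectrum ℝ a, l ≠ 0
  · obtain ⟨l, hl, hl0⟩ := h
    refine ⟨l, ?_⟩
    have h1 : ∀ t ∈ spectrum ℝ a, t * t = l * t := by
      intro t ht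
      by_contra hne
      exact hno (exists_sq_zero_of_two_values B hB he ha has hea hl ht hl0
        (fun h0 => hne (by rw [h0]; ring)) (fun h0 => hne (by rw [h0])))
    calc a * a = cfc (fun t : ℝ => t * t) a := by
          rw [cfc_mul (fun t : ℝ => t) (fun t : ℝ => t) a, cfc_id' ℝ a]
      _ = cfc (fun t : ℝ => l * t) a := cfc_congr h1
      _ = l • a := cfc_const_mul_id l a
  · push Not at h
    refine ⟨0, ?_⟩
    have h0 : a = 0 := by
      calc a = cfc (fun t : ℝ => t) a := (cfc_id' ℝ a).symm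
        _ = cfc (fun _ : ℝ => (0 : ℝ)) a := cfc_congr h
        _ = 0 := cfc_const_zero ℝ a
    simp [h0]

include hB hinf in
/-- The corner of a self-adjoint `e` that fixes a nonzero element contains a nonzero square-zero
element. -/
theorem exists_sq_zero {e d : A} (he : IsSelfAdjoint e) (hd : d ∈ B) (hd0 : d ≠ 0)
    (hed : e * d = d) : ∃ z ∈ B, z ≠ 0 ∧ z * z = 0 ∧ e * z = z ∧ z * e = z := by
  by_contra hno
  set a := d * star d with haDef
  have haB : a ∈ B := mul_mem hd (star_mem hd)
  have has : IsSelfAdjoint a := IsSelfAdjoint.mul_star_self d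
  have ha0 : a ≠ 0 := fun h => hd0 (CStarRing.mul_star_self_eq_zero_iff d |>.1 h)
  have hea : e * a = a := by rw [haDef, ← mul_assoc, hed]
  obtain ⟨l, hl⟩ := mul_self_eq_smul_of_not_two B hB he haB has hea hno
  have hl0 : l ≠ 0 := by
    intro h
    rw [h, zero_smul] at hl
    apply ha0
    have h2 : star a * a = 0 := by rw [has.star_eq, hl]
    exact CStarRing.star_mul_self_eq_zero_iff a |>.1 h2
  set p := l⁻¹ • a with hpDef
  have hsmulB : ∀ (t : ℝ) (x : A), x ∈ B → t • x ∈ B := fun t x hx => by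
    rw [← Complex.coe_smul]; exact SMulMemClass.smul_mem _ hx
  have hpB : p ∈ B := hsmulB _ _ haB
  have hp0 : p ≠ 0 := smul_ne_zero (inv_ne_zero hl0) ha0
  have hps : IsSelfAdjoint p := IsSelfAdjoint.smul (IsSelfAdjoint.all _) has
  have hep : e * p = p := by rw [hpDef, mul_smul_comm, hea]
  have hpp : p * p = p := by
    rw [hpDef, smul_mul_smul_comm, hl, smul_smul]
    congr 1; field_simp
  clear_value p
  have key : ∀ b ∈ B, IsSelfAdjoint b → p * b = b → b * p = b → ∃ t : ℝ, b = t • p := by
    intro b hb hbs hpb hbp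
    have heb : e * b = b := by rw [← hpb, ← mul_assoc, hep]
    obtain ⟨x, hx⟩ := mul_self_eq_smul_of_not_two B hB he hb hbs heb hno
    have step : ∀ s : ℝ, ∃ y : ℝ, (x + 2 * s - y) • b = (s * y - s * s) • p := by
      intro s
      obtain ⟨y, hy⟩ := mul_self_eq_smul_of_not_two B hB he (add_mem hb (hsmulB s p hpB))
        (hbs.add (IsSelfAdjoint.smul (IsSelfAdjoint.all s) hps))
        (by rw [mul_add, heb, mul_smul_comm, hep]) hno
      refine ⟨y, ?_⟩
      simp only [mul_add, add_mul, hx, mul_smul_comm, smul_mul_assoc, hpb, hbp, hpp] at hy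
      rw [← sub_eq_zero] at hy ⊢
      rw [← hy]; module
    obtain ⟨y, hy⟩ := step 1
    by_cases h1 : x + 2 * 1 - y = 0
    · obtain ⟨w, hw⟩ := step 2
      have hy1 : (1 * y - 1 * 1 : ℝ) = 0 := by
        rw [h1, zero_smul] at hy
        exact (smul_eq_zero.1 hy.symm).resolve_right hp0
      by_cases h2 : x + 2 * 2 - w = 0
      · rw [h2, zero_smul] at hw
        have := (smul_eq_zero.1 hw.symm).resolve_right hp0
        exfalso; linarith
      · exact ⟨(x + 2 * 2 - w)⁻¹ * (2 * w - 2 * 2), by
          rw [mul_smul, ← hw, inv_smul_smul₀ h2]⟩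
    · exact ⟨(x + 2 * 1 - y)⁻¹ * (1 * y - 1 * 1), by rw [mul_smul, ← hy, inv_smul_smul₀ h1]⟩
  obtain ⟨x, hx, hxc⟩ := exists_not_scalar_corner B hB hinf hpB hp0
  have hcorner : ∀ w ∈ B, IsSelfAdjoint w → ∃ t : ℝ, p * w * p = t • p := by
    intro w hw hws
    refine key _ (mul_mem (mul_mem hpB hw) hpB) ?_ ?_ ?_
    · simpa [hps.star_eq] using hws.conjugate p
    · simp only [← mul_assoc, hpp]
    · simp only [mul_assoc, hpp]
  have hre : ((realPart x : A)) ∈ B := by
    rw [realPart_apply_coe]; exact hsmulB _ _ (add_mem hx (star_mem hx))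
  have him : ((imaginaryPart x : A)) ∈ B := by
    rw [imaginaryPart_apply_coe]
    exact SMulMemClass.smul_mem _ (hsmulB _ _ (sub_mem hx (star_mem hx)))
  obtain ⟨t, ht⟩ := hcorner _ hre (realPart x).2
  obtain ⟨u, hu⟩ := hcorner _ him (imaginaryPart x).2
  refine hxc ((t : ℂ) + Complex.I * (u : ℂ)) ?_
  conv_lhs => rw [← realPart_add_I_smul_imaginaryPart x]
  rw [mul_add, add_mul, ht, mul_smul_comm, smul_mul_assoc, hu, add_smul, mul_smul,
    Complex.coe_smul, Complex.coe_smul]

end Vale.Agent.P070
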