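import Mathlib

/-!
# States and irreducible representations

States are modelled inside the product space `A → ℂ`. Extreme states give irreducible unital
star representations on Hilbert spaces in the universe of `A`, with a cyclic vector.
-/

namespace Vale.Agent.P070

open scoped ComplexOrder InnerProductSpace
open Set

universe u

variable {A : Type u} [CStarAlgebra A]

/-- The state space, inside `A → ℂ`. -/
def states (A : Type u) [CStarAlgebra A] : Set (A → ℂ) :=
  {f | (∀ a b, f (a + b) = f a + f b) ∧ (∀ (c : ℂ) a, f (c • a) = c * f a) ∧ f 1 = 1 ∧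
    ∀ a, ‖f a‖ ≤ ‖a‖}

lemma isClosed_states : IsClosed (states A) := by
  simp only [states, ofPred_and, ofPred_forall]
  refine IsClosed.inter ?_ (IsClosed.inter ?_ (IsClosed.inter ?_ ?_))
  · exact isClosed_iInter fun a => isClosed_iInter fun b => isClosed_eq (by fun_prop) (by fun_prop)
  · exact isClosed_iInter fun c => isClosed_iInter fun a => isClosed_eq (by fun_prop) (by fun_prop)
  · exact isClosed_eq (by fun_prop) continuous_const
  · exact isClosed_iInter fun a => isClosed_le (by fun_prop) continuous_const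

lemma isCompact_states : IsCompact (states A) :=
  (isCompact_univ_pi fun a : A => isCompact_closedBall (0 : ℂ) ‖a‖).of_isClosed_subset
    isClosed_states fun f hf a _ => by simpa using hf.2.2.2 a

lemma exists_state_eq_one {p : A} (hp : ‖p‖ ≤ 1) (h2 : 2 ≤ ‖1 + p‖) :
    ∃ f ∈ states A, f p = 1 := by
  have hA : Nontrivial A := by
    refine ⟨⟨1 + p, 0, fun h => ?_⟩⟩
    rw [h, norm_zero] at h2; linarith
  have h2' : ‖1 + p‖ = 2 := by
    refine le_antisymm ((norm_add_le _ _).trans ?_) h2
    rw [norm_one]; linarith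
  obtain ⟨g, hg, hgp⟩ := exists_dual_vector'' ℂ (1 + p)
  have h1 : ‖g 1‖ ≤ 1 := by
    refine (g.le_of_opNorm_le hg 1).trans ?_
    rw [norm_one, one_mul]
  have hp' : ‖g p‖ ≤ 1 := (g.le_of_opNorm_le hg p).trans (by linarith [norm_nonneg p])
  rw [h2', map_add] at hgp
  have hre := congrArg Complex.re hgp
  simp only [Complex.add_re] at hre
  norm_num at hre
  have key : ∀ w : ℂ, ‖w‖ ≤ 1 → 1 ≤ w.re → w = 1 := fun w hw hwr => by
    have hn := Complex.normSq_eq_norm_sq w
    rw [Complex.normSq_apply] at hn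
    have hw2 : ‖w‖ ^ 2 ≤ 1 := by nlinarith [norm_nonneg w]
    have him : w.im = 0 := by nlinarith
    exact Complex.ext (by simp only [Complex.one_re]; nlinarith) (by simp [him])
  have hr1 := Complex.re_le_norm (g 1)
  have hr2 := Complex.re_le_norm (g p)
  refine ⟨g, ⟨g.map_add, fun c a => by simp, key _ h1 (by linarith), fun a => ?_⟩,
    key _ hp' (by linarith)⟩
  exact (g.le_of_opNorm_le hg a).trans (by rw [one_mul])

variable [PartialOrder A] [StarOrderedRing A]

lemma states_nonneg {f : A → ℂ} (hf : f ∈ states A) {a : A} (ha : 0 ≤ a) : 0 ≤ f a := by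
  obtain ⟨hadd, hsmul, h1, hn⟩ := hf
  have hA : Nontrivial A := by
    refine ⟨⟨1, 0, fun h => ?_⟩⟩
    have h0 := hn 1
    rw [h1, h, norm_one, norm_zero] at h0
    linarith
  have has : IsSelfAdjoint a := .of_nonneg ha
  have him : (f a).im = 0 := by
    by_contra hne
    -- test against `a + i t`
    have key : ∀ t : ℝ, ((f a).im + t) ^ 2 ≤ ‖a‖ ^ 2 + t ^ 2 := by
      intro t
      have hb := hn (a + (Complex.I * t) • (1 : A))
      rw [hadd, hsmul, h1, mul_one] at hb
      have hsq : ‖a + (Complex.I * t) • (1 : A)‖ ^ 2 ≤ ‖a‖ ^ 2 + t ^ 2 := by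
        rw [sq, ← CStarRing.norm_star_mul_self]
        have hstar : star (a + (Complex.I * t) • (1 : A)) * (a + (Complex.I * t) • (1 : A))
            = a * a + ((t : ℂ) ^ 2) • (1 : A) := by
          simp only [star_add, star_smul, star_one, has.star_eq, Complex.star_def, map_mul,
            Complex.conj_I, Complex.conj_ofReal, add_mul, mul_add, smul_mul_assoc, one_mul,
            mul_smul_comm, mul_one]
          match_scalars <;> ring_nf <;> simp [Complex.I_sq]
        rw [hstar]
        refine (norm_add_le _ _).trans (add_le_add ?_ ?_)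
        · rw [sq]; exact norm_mul_le _ _
        · rw [norm_smul, norm_one, mul_one, norm_pow, Complex.norm_real, Real.norm_eq_abs, sq_abs]
      have h2 : ((f a).im + t) ^ 2 ≤ ‖f a + Complex.I * t‖ ^ 2 := by
        rw [← Complex.normSq_eq_norm_sq, Complex.normSq_apply]
        simp
        nlinarith [sq_nonneg (f a).re]
      nlinarith [norm_nonneg (f a + Complex.I * t)]
    have := key ((‖a‖ ^ 2 + 1) / (2 * (f a).im))
    have h3 : 2 * (f a).im * ((‖a‖ ^ 2 + 1) / (2 * (f a).im)) = ‖a‖ ^ 2 + 1 := by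
      field_simp
    nlinarith [sq_nonneg (f a).im]
  have hre : 0 ≤ (f a).re := by
    have h2 : ‖((‖a‖ : ℝ) : ℂ) • (1 : A) - a‖ ≤ ‖a‖ := by
      have hle : a ≤ ((‖a‖ : ℝ) : ℂ) • (1 : A) := by
        rw [Complex.coe_smul, ← Algebra.algebraMap_eq_smul_one]
        exact IsSelfAdjoint.le_algebraMap_norm_self has
      have := CStarAlgebra.norm_le_norm_of_nonneg_of_le (sub_nonneg.2 hle) (sub_le_self _ ha)
      simpa [norm_smul] using this
    have h3 := hn (((‖a‖ : ℝ) : ℂ) • (1 : A) - a)
    rw [sub_eq_add_neg, hadd, hsmul, h1, mul_one, ← neg_one_smul ℂ a, hsmul] at h3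
    have h4 := Complex.re_le_norm (((‖a‖ : ℝ) : ℂ) + -1 * f a)
    rw [neg_one_smul, ← sub_eq_add_neg] at h3
    rw [neg_one_mul] at h3 h4
    simp only [Complex.add_re, Complex.ofReal_re, Complex.neg_re] at h4
    linarith
  exact Complex.nonneg_iff.2 ⟨hre, him.symm⟩

/-- A state as a positive linear map. -/
noncomputable def toPos {f : A → ℂ} (hf : f ∈ states A) : A →ₚ[ℂ] ℂ :=
  PositiveLinearMap.mk₀
    { toFun := f
      map_add' := hf.1
      map_smul' := fun c a => by simpa using hf.2.1 c a }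
    (fun _ ha => states_nonneg hf ha)

@[simp] lemma toPos_apply {f : A → ℂ} (hf : f ∈ states A) (a : A) : toPos hf a = f a := rfl

/-- The cyclic vector. -/
noncomputable def cyc {f : A → ℂ} (hf : f ∈ states A) : (toPos hf).GNS :=
  ((toPos hf).toPreGNS 1 : (toPos hf).PreGNS)

lemma gns_cyc {f : A → ℂ} (hf : f ∈ states A) (a : A) :
    (toPos hf).gnsStarAlgHom a (cyc hf) = ((toPos hf).toPreGNS a : (toPos hf).PreGNS) := by
  simp [cyc]

lemma inner_gns {f : A → ℂ} (hf : f ∈ states A) (a b : A) :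
    ⟪(toPos hf).gnsStarAlgHom a (cyc hf), (toPos hf).gnsStarAlgHom b (cyc hf)⟫_ℂ
      = f (star a * b) := by
  rw [gns_cyc, gns_cyc, UniformSpace.Completion.inner_coe, PositiveLinearMap.preGNS_inner_def]
  simp

lemma inner_cyc_gns {f : A → ℂ} (hf : f ∈ states A) (a : A) :
    ⟪cyc hf, (toPos hf).gnsStarAlgHom a (cyc hf)⟫_ℂ = f a := by
  have := inner_gns hf 1 a
  rwa [map_one, one_apply_eq_self, star_one, one_mul] at this

lemma norm_cyc {f : A → ℂ} (hf : f ∈ states A) : ‖cyc hf‖ = 1 := by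
  have := inner_cyc_gns hf 1
  rw [map_one, one_apply_eq_self, inner_self_eq_norm_sq_to_K, hf.2.2.1] at this
  have h2 : ‖cyc hf‖ ^ 2 = 1 := by
    have h3 := congrArg Complex.re this
    simpa [← Complex.ofReal_pow] using h3
  nlinarith [norm_nonneg (cyc hf)]

/-- The cyclic vector is cyclic. -/
lemma dense_cyc {f : A → ℂ} (hf : f ∈ states A) :
    DenseRange fun a => (toPos hf).gnsStarAlgHom a (cyc hf) := by
  have := UniformSpace.Completion.denseRange_coe.comp
    (f := fun a => (toPos hf).toPreGNS a) (toPos hf).toPreGNS.surjective.denseRange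
    (UniformSpace.Completion.continuous_coe _)
  convert this using 1
  funext a
  exact gns_cyc hf a

/-- A vector state of a unital representation is a state. -/
lemma vectorState_mem {H : Type u} [NormedAddCommGroup H] [InnerProductSpace ℂ H]
    [CompleteSpace H] (π : A →⋆ₐ[ℂ] (H →L[ℂ] H)) {x : H} (hx : ‖x‖ = 1) :
    (fun a => ⟪x, π a x⟫_ℂ) ∈ states A := by
  refine ⟨fun a b => by simp, fun c a => by simp, ?_,
    fun a => ?_⟩
  · simp [inner_self_eq_norm_sq_to_K, hx]
  · refine (norm_inner_le_norm _ _).trans ?_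
    rw [hx, one_mul]
    refine ((π a).le_opNorm x).trans ?_
    rw [hx, mul_one]
    exact NonUnitalStarAlgHom.norm_apply_le π a

/-- Extreme states have irreducible GNS representations. -/
theorem gns_irreducible {f : A → ℂ} (hfx : f ∈ (states A).extremePoints ℝ)
    (K : Submodule ℂ (toPos hfx.1).GNS) (hK : IsClosed (K : Set (toPos hfx.1).GNS))
    (hinv : ∀ a, ∀ x ∈ K, (toPos hfx.1).gnsStarAlgHom a x ∈ K) : K = ⊥ ∨ K = ⊤ := by
  set π := (toPos hfx.1).gnsStarAlgHom with hπ
  set Ω := cyc hfx.1 with hΩ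
  have : CompleteSpace K := hK.completeSpace_coe
  set P := K.starProjection with hP
  have hPinner : ∀ x y, ⟪P x, y⟫_ℂ = ⟪x, P y⟫_ℂ := fun x y =>
    K.inner_starProjection_left_eq_right x y
  have hcomm : ∀ a x, P (π a x) = π a (P x) := by
    intro a x
    refine (Submodule.eq_starProjection_of_mem_of_inner_eq_zero
      (hinv a _ (K.starProjection_apply_mem x)) fun w hw => ?_)
    rw [← map_sub, ← ContinuousLinearMap.adjoint_inner_right,
      ← ContinuousLinearMap.star_eq_adjoint, ← map_star]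
    exact K.starProjection_inner_eq_zero x _ (hinv (star a) w hw)
  have hPP : ∀ x, P (P x) = P x := fun x =>
    Submodule.starProjection_eq_self_iff.2 (K.starProjection_apply_mem x)
  have hpm : P Ω = 0 ∨ P Ω = Ω := by
    by_contra hne
    push Not at hne
    obtain ⟨h0, h1⟩ := hne
    set x := P Ω with hx
    set y := Ω - P Ω with hy
    have hy0 : y ≠ 0 := sub_ne_zero.2 (Ne.symm h1)
    have hPy : P y = 0 := by rw [hy, map_sub, hPP, sub_self]
    have horth : ∀ a, ⟪x, π a y⟫_ℂ = 0 ∧ ⟪y, π a x⟫_ℂ = 0 := by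
      intro a
      refine ⟨?_, ?_⟩
      · rw [hx, hPinner, hcomm, hPy, map_zero, inner_zero_right]
      · rw [hx, ← hcomm, ← hPinner, hPy, inner_zero_left]
    have hsum : ∀ a, f a = ⟪x, π a x⟫_ℂ + ⟪y, π a y⟫_ℂ := by
      intro a
      have hsplit : Ω = x + y := by rw [hy, hx]; abel
      rw [← inner_cyc_gns hfx.1 a, ← hΩ, ← hπ]
      conv_lhs => rw [hsplit]
      simp [inner_add_left, inner_add_right, (horth a).1, (horth a).2]
    have hxpos : 0 < ‖x‖ := norm_pos_iff.2 h0
    have hypos : 0 < ‖y‖ := norm_pos_iff.2 hy0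
    have hxy : ‖x‖ ^ 2 + ‖y‖ ^ 2 = 1 := by
      have := hsum 1
      simp only [map_one, one_apply_eq_self, inner_self_eq_norm_sq_to_K,
        hfx.1.2.2.1] at this
      have h6 := congrArg Complex.re this
      simpa [← Complex.ofReal_pow] using h6.symm
    set u := ((‖x‖⁻¹ : ℝ) : ℂ) • x with hu
    set w := ((‖y‖⁻¹ : ℝ) : ℂ) • y with hw
    have hu1 : ‖u‖ = 1 := by
      rw [hu, norm_smul, Complex.norm_real, norm_inv, norm_norm, inv_mul_cancel₀ hxpos.ne']
    have hw1 : ‖w‖ = 1 := by
      rw [hw, norm_smul, Complex.norm_real, norm_inv, norm_norm, inv_mul_cancel₀ hypos.ne']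
    have hscale : ∀ (z : (toPos hfx.1).GNS) (a : A),
        ((‖z‖ ^ 2 : ℝ) : ℂ) * ⟪((‖z‖⁻¹ : ℝ) : ℂ) • z, π a (((‖z‖⁻¹ : ℝ) : ℂ) • z)⟫_ℂ
          = ⟪z, π a z⟫_ℂ := by
      intro z a
      rcases eq_or_ne z 0 with rfl | hz
      · simp
      · rw [map_smul, inner_smul_left, inner_smul_right, Complex.conj_ofReal, Complex.ofReal_pow,
          Complex.ofReal_inv]
        have : ((‖z‖ : ℝ) : ℂ) ≠ 0 := by exact_mod_cast norm_ne_zero_iff.2 hz
        field_simp
    have hmem : f ∈ openSegment ℝ (fun a => ⟪u, π a u⟫_ℂ) (fun a => ⟪w, π a w⟫_ℂ) := by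
      refine ⟨‖x‖ ^ 2, ‖y‖ ^ 2, pow_pos hxpos 2, pow_pos hypos 2, hxy, ?_⟩
      funext a
      simp only [Pi.add_apply, Pi.smul_apply, Complex.real_smul]
      rw [hu, hw, hscale, hscale, hsum]
    have heq := (mem_extremePoints_iff_left.1 hfx).2 _ (vectorState_mem π hu1) _
      (vectorState_mem π hw1) hmem
    -- so `P Ω` is a scalar multiple of `Ω`
    have hprop : ∀ a, ⟪x, π a Ω⟫_ℂ = ⟪((‖x‖ ^ 2 : ℝ) : ℂ) • Ω, π a Ω⟫_ℂ := by
      intro a
      rw [inner_smul_left, Complex.conj_ofReal, inner_cyc_gns, ← congrFun heq a, hscale]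
      have hsplit : Ω = x + y := by rw [hy, hx]; abel
      conv_lhs => rw [hsplit]
      simp [inner_add_right, (horth a).1]
    have hzero : x = ((‖x‖ ^ 2 : ℝ) : ℂ) • Ω := by
      rw [← sub_eq_zero]
      refine (dense_cyc hfx.1).induction_on
        (p := fun z => ⟪x - ((‖x‖ ^ 2 : ℝ) : ℂ) • Ω, z⟫_ℂ = 0) _ ?_ ?_ |> inner_self_eq_zero.1
      · exact isClosed_eq (by fun_prop) continuous_const
      · intro a; rw [inner_sub_left, ← hprop, sub_self]
    have hP2 := hPP Ω
    rw [← hx] at hP2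
    conv at hP2 => lhs; rw [hzero]; rw [map_smul, ← hx]
    have h5 : (((‖x‖ ^ 2 : ℝ) : ℂ) - 1) • x = 0 := by rw [sub_smul, one_smul, hP2, sub_self]
    rcases smul_eq_zero.1 h5 with h | h
    · have : ‖x‖ ^ 2 = 1 := by exact_mod_cast sub_eq_zero.1 h
      nlinarith
    · exact h0 h
  rcases hpm with h | h
  · left
    rw [Submodule.eq_bot_iff]
    intro z hz
    rw [← Submodule.starProjection_eq_self_iff.2 hz, ← hP]
    refine (dense_cyc hfx.1).induction_on (p := fun z => P z = 0) z
      (isClosed_eq P.continuous continuous_const) fun a => ?_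
    rw [← hπ, ← hΩ, hcomm, h, map_zero]
  · right
    rw [eq_top_iff]
    intro z _
    rw [← Submodule.starProjection_eq_self_iff, ← hP]
    refine (dense_cyc hfx.1).induction_on (p := fun z => P z = z) z
      (isClosed_eq P.continuous continuous_id) fun a => ?_
    rw [← hπ, ← hΩ, hcomm, h]

end Vale.Agent.P070
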