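import Mathlib
import Vale.Agent.P070.Nilpotent

/-!
# Glimm trees in a simple C⋆-subalgebra

A tree is a sequence of self-adjoint `e n` and of `v n` such that, in the corner fixed by `e n`,
the elements `e (n+1)` and `v n * e (n+1) * star (v n)` are orthogonal copies of each other.
-/

namespace Vale.Agent.P070

open scoped ComplexOrder

variable {A : Type*} [CStarAlgebra A]

/-- One branching step below `e`. -/
structure IsStep (e v e' : A) : Prop where
  selfAdjoint : IsSelfAdjoint e
  selfAdjoint' : IsSelfAdjoint e'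
  norm_le' : ‖e'‖ ≤ 1
  norm_v : ‖v‖ ≤ 1
  fix_v : e * v = v
  fix_e : e * e' = e'
  iso : star v * v * e' = e'
  orth : e' * v = 0

/-- A binary tree. -/
structure IsTree (B : StarSubalgebra ℂ A) (e v : ℕ → A) : Prop where
  zero : e 0 = 1
  mem : ∀ n, e n ∈ B
  mem_v : ∀ n, v n ∈ B
  ne : ∀ n, e n ≠ 0
  step : ∀ n, IsStep (e n) (v n) (e (n + 1))

/-- Ramp equal to `1` from `1/2` on and `0` up to `1/4`. -/
noncomputable def ramp (t : ℝ) : ℝ := max 0 (min 1 (4 * t - 1))

/-- A function supported above `1/2`. -/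
noncomputable def room (t : ℝ) : ℝ := max 0 (2 * t - 1)

/-- Inverse square root, cut off at `1/4`. -/
noncomputable def invRoot (t : ℝ) : ℝ := (Real.sqrt (max t (1 / 4)))⁻¹

lemma continuous_invRoot : Continuous invRoot := by
  unfold invRoot
  refine Continuous.inv₀ (by fun_prop) fun t => ne_of_gt (Real.sqrt_pos.2 ?_)
  exact lt_max_of_lt_right (by norm_num)

lemma invRoot_sq (t : ℝ) : invRoot t * invRoot t = (max t (1 / 4))⁻¹ := by
  unfold invRoot
  rw [← mul_inv, Real.mul_self_sqrt]
  exact le_trans (by norm_num) (le_max_right t (1 / 4))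

variable (B : StarSubalgebra ℂ A) (hB : IsClosed (B : Set A)) [IsSimpleRing B]
  (hinf : ¬ FiniteDimensional ℂ B)

include hB hinf in
theorem exists_step {e d : A} (he : IsSelfAdjoint e) (hd : d ∈ B) (hd0 : d ≠ 0)
    (hed : e * d = d) :
    ∃ v e' d' : A, v ∈ B ∧ e' ∈ B ∧ d' ∈ B ∧ d' ≠ 0 ∧ e' * d' = d' ∧ IsStep e v e' := by
  let _ : PartialOrder A := CStarAlgebra.spectralOrder A
  have : StarOrderedRing A := CStarAlgebra.spectralOrderedRing A
  obtain ⟨z₀, hz₀, hz0, hzz, hez₀, hze₀⟩ := exists_sq_zero B hB hinf he hd hd0 hed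
  set z : A := ((‖z₀‖⁻¹ : ℝ) : ℂ) • z₀ with hzdef
  have hzB : z ∈ B := SMulMemClass.smul_mem _ hz₀
  have hn : ‖z₀‖ ≠ 0 := by simpa using hz0
  have hz1 : ‖z‖ = 1 := by
    rw [hzdef, norm_smul, Complex.norm_real, norm_inv, norm_norm, inv_mul_cancel₀ hn]
  have hzz' : z * z = 0 := by rw [hzdef, smul_mul_smul_comm, hzz, smul_zero]
  have hez : e * z = z := by rw [hzdef, mul_smul_comm, hez₀]
  have hze : z * e = z := by rw [hzdef, smul_mul_assoc, hze₀]
  clear_value z
  set h : A := star z * z with hh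
  have hhB : h ∈ B := mul_mem (star_mem hzB) hzB
  have hhs : IsSelfAdjoint h := IsSelfAdjoint.star_mul_self z
  have hh0 : 0 ≤ h := star_mul_self_nonneg z
  have hh1 : ‖h‖ = 1 := by rw [hh, CStarRing.norm_star_mul_self, hz1, one_mul]
  have : Nontrivial A := ⟨⟨d, 0, hd0⟩⟩
  have h1mem : (1 : ℝ) ∈ spectrum ℝ h := by
    have := CStarAlgebra.norm_mem_spectrum_of_nonneg (A := A) (a := h) hh0
    rwa [hh1] at this
  have hspec : ∀ t ∈ spectrum ℝ h, 0 ≤ t := fun t ht => spectrum_nonneg_of_nonneg hh0 ht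
  set k := cfc invRoot h with hk
  have hks : IsSelfAdjoint k := cfc_predicate _ _
  set v := z * k with hv
  set e' := cfc ramp h with he'
  set d' := cfc room h with hd'
  have he's : IsSelfAdjoint e' := cfc_predicate _ _
  have hc1 : ContinuousOn invRoot (spectrum ℝ h) := continuous_invRoot.continuousOn
  have hc2 : ContinuousOn ramp (spectrum ℝ h) := by unfold ramp; fun_prop
  have hc3 : ContinuousOn room (spectrum ℝ h) := by unfold room; fun_prop
  have hvv : star v * v = cfc (fun t => invRoot t * t * invRoot t) h := by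
    rw [cfc_mul (fun t => invRoot t * t) invRoot h, cfc_mul invRoot (fun t => t) h,
      cfc_id' ℝ h, hv, star_mul, hks.star_eq, hh]
    simp only [mul_assoc]
    rfl
  have hfac : ∀ t, invRoot t * t * invRoot t = t / max t (1 / 4) := fun t => by
    rw [mul_right_comm, invRoot_sq, inv_mul_eq_div]
  have hnv : ‖v‖ ≤ 1 := by
    have h2 : ‖star v * v‖ ≤ 1 := by
      rw [hvv]
      refine norm_cfc_le zero_le_one fun t ht => ?_
      rw [hfac, Real.norm_eq_abs, abs_of_nonneg]
      · rw [div_le_one (lt_max_of_lt_right (by norm_num))]; exact le_max_left _ _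
      · exact div_nonneg (hspec t ht) (le_trans (by norm_num) (le_max_right t (1 / 4)))
    rw [CStarRing.norm_star_mul_self] at h2
    nlinarith [norm_nonneg v]
  have hne' : ‖e'‖ ≤ 1 := by
    refine norm_cfc_le zero_le_one fun t _ => ?_
    rw [Real.norm_eq_abs, abs_of_nonneg (le_max_left _ _)]
    exact max_le zero_le_one (min_le_left _ _)
  -- `e'` factors through `h`, hence lives in the corner
  have hfix : ∀ f : ℝ → ℝ, Continuous f → (∀ t, t ≤ 1 / 4 → f t = 0) →
      cfc f h = h * cfc (fun t => f t / max t (1 / 4)) h := by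
    intro f hf hf0
    have hc : ContinuousOn (fun t => f t / max t (1 / 4)) (spectrum ℝ h) :=
      (hf.div₀ (by fun_prop) fun t => ne_of_gt (lt_max_of_lt_right (by norm_num))).continuousOn
    conv_rhs => lhs; rw [← cfc_id' ℝ h]
    rw [← cfc_mul (fun t => t) (fun t => f t / max t (1 / 4)) h continuousOn_id hc]
    refine cfc_congr fun t _ => ?_
    rcases le_or_gt t (1 / 4) with ht | ht
    · simp [hf0 t ht]
    · rw [max_eq_left ht.le]; field_simp
  have he0 : ∀ t : ℝ, t ≤ 1 / 4 → ramp t = 0 := fun t ht => by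
    unfold ramp
    rw [max_eq_left]
    exact le_trans (min_le_right _ _) (by linarith)
  have heh : e * h = h := by
    have : e * star z = star z := by
      have := congrArg star hze
      rwa [star_mul, he.star_eq] at this
    rw [hh, ← mul_assoc, this]
  refine ⟨v, e', d', mul_mem hzB (cfc_mem_B B hB _ hhB), cfc_mem_B B hB _ hhB,
    cfc_mem_B B hB _ hhB, ?_, ?_, ⟨he, he's, hne', hnv, ?_, ?_, ?_, ?_⟩⟩
  · intro h0
    have := eqOn_of_cfc_eq_cfc (R := ℝ) (a := h) (f := room) (g := 0)
      (by rw [← hd', h0, cfc_zero]) hc3 continuousOn_const hhs h1mem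
    simp [room] at this
    norm_num at this
  · rw [he', hd', ← cfc_mul ramp room h hc2 hc3]
    refine cfc_congr fun t _ => ?_
    unfold ramp room
    rcases le_or_gt t (1 / 2) with ht | ht
    · rw [max_eq_left (by linarith : 2 * t - 1 ≤ 0)]; simp
    · rw [min_eq_left (by linarith : (1 : ℝ) ≤ 4 * t - 1)]; simp
  · rw [hv, ← mul_assoc, hez]
  · rw [he', hfix ramp (by unfold ramp; fun_prop) he0, ← mul_assoc, heh]
  · rw [hvv, he', ← cfc_mul (fun t => invRoot t * t * invRoot t) ramp h
      ((hc1.mul continuousOn_id).mul hc1) hc2]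
    refine cfc_congr fun t _ => ?_
    rcases le_or_gt t (1 / 4) with ht | ht
    · simp [he0 t ht]
    · rw [hfac, max_eq_left ht.le, div_self (by linarith), one_mul]
  · have hcomm : e' = cfc (fun t => ramp t / max t (1 / 4)) h * h := by
      rw [he', hfix ramp (by unfold ramp; fun_prop) he0]
      exact ((Commute.refl h).cfc_real _).eq.symm
    rw [hcomm, hv, hh]
    simp only [mul_assoc]
    rw [← mul_assoc z z, hzz']
    simp

include hB hinf in
theorem exists_tree [Nontrivial A] : ∃ e v : ℕ → A, IsTree B e v := by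
  let S := {q : A × A // q.1 ∈ B ∧ IsSelfAdjoint q.1 ∧ q.2 ∈ B ∧ q.2 ≠ 0 ∧ q.1 * q.2 = q.2}
  have hnext : ∀ q : S, ∃ (v : A) (q' : S), v ∈ B ∧ IsStep q.1.1 v q'.1.1 := by
    rintro ⟨⟨e, d⟩, -, he, hd, hd0, hed⟩
    obtain ⟨v, e', d', hv, he', hd', hd0', hed', hs⟩ := exists_step B hB hinf he hd hd0 hed
    exact ⟨v, ⟨(e', d'), he', hs.selfAdjoint', hd', hd0', hed'⟩, hv, hs⟩
  choose V Q hV hQ using hnext
  let q : ℕ → S := fun n => Nat.rec
    (⟨(1, 1), one_mem B, IsSelfAdjoint.one A, one_mem B, one_ne_zero, one_mul 1⟩ : S)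
    (fun _ q => Q q) n
  refine ⟨fun n => (q n).1.1, fun n => V (q n), rfl, fun n => (q n).2.1, fun n => hV (q n),
    fun n h0 => ?_, fun n => hQ (q n)⟩
  obtain ⟨-, -, -, hd0, hed⟩ := (q n).2
  simp only [h0, zero_mul] at hed
  exact hd0 hed.symm

/-- The word of a branch. -/
def word (v : ℕ → A) : (n : ℕ) → (Fin n → Bool) → A
  | 0, _ => 1
  | n + 1, s => word v n (Fin.init s) * (if s (Fin.last n) then v n else 1)

variable {B}

omit [IsSimpleRing B] in
lemma word_mem {v : ℕ → A} (hv : ∀ n, v n ∈ B) : ∀ n s, word v n s ∈ B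
  | 0, _ => one_mem B
  | n + 1, s => by
      refine mul_mem (word_mem hv n _) ?_
      split
      · exact hv n
      · exact one_mem B

lemma sum_bool_snoc {M : Type*} [AddCommMonoid M] (n : ℕ) (F : (Fin (n + 1) → Bool) → M) :
    ∑ s, F s = ∑ s : Fin n → Bool, (F (Fin.snoc s true) + F (Fin.snoc s false)) := by
  rw [← Equiv.sum_comp (Fin.snocEquiv fun _ => Bool) F, Fintype.sum_prod_type,
    Fintype.sum_bool, ← Finset.sum_add_distrib]
  rfl

lemma word_snoc (v : ℕ → A) (n : ℕ) (s : Fin n → Bool) (b : Bool) :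
    word v (n + 1) (Fin.snoc s b) = word v n s * (if b then v n else 1) := by
  simp [word, Fin.init_snoc, Fin.snoc_last]

lemma IsStep.le_sq [PartialOrder A] [StarOrderedRing A] {e v e' : A} (h : IsStep e v e') :
    e' * e' + v * (e' * e') * star v ≤ e * e := by
  set a := e' * e' with ha
  set b := v * (e' * e') * star v with hb
  have hs := h.selfAdjoint'.star_eq
  have ha0 : 0 ≤ a := by
    have := star_mul_self_nonneg e'
    rwa [hs] at this
  have hb0 : 0 ≤ b := by
    have := star_left_conjugate_nonneg ha0 (star v)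
    rwa [star_star] at this
  have ha1 : a ≤ 1 := by
    rw [← CStarAlgebra.norm_le_one_iff_of_nonneg a ha0]
    exact (norm_mul_le _ _).trans (by nlinarith [norm_nonneg e', h.norm_le'])
  have hb1 : b ≤ 1 := by
    rw [← CStarAlgebra.norm_le_one_iff_of_nonneg b hb0]
    have h1 : ‖e' * e'‖ ≤ 1 :=
      (norm_mul_le _ _).trans (by nlinarith [norm_nonneg e', h.norm_le'])
    refine (norm_mul_le _ _).trans ?_
    rw [norm_star]
    have h2 : ‖v * (e' * e')‖ ≤ 1 :=
      (norm_mul_le _ _).trans (by nlinarith [norm_nonneg v, norm_nonneg (e' * e'), h.norm_v])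
    nlinarith [norm_nonneg v, h.norm_v, norm_nonneg (v * (e' * e'))]
  have hab : a * b = 0 := by
    rw [ha, hb]
    simp only [mul_assoc]
    rw [← mul_assoc e' v, h.orth]
    simp
  have hba : b * a = 0 := by
    have hve : star v * e' = 0 := by
      have := congrArg star h.orth
      rwa [star_mul, star_zero, hs] at this
    rw [ha, hb]
    simp only [mul_assoc]
    rw [← mul_assoc (star v) e', hve]
    simp
  have hq : a + b ≤ 1 := by
    have hcomm : Commute (1 - a) (1 - b) := by
      show _ = _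
      simp [mul_sub, sub_mul, hab, hba]
      abel
    have := hcomm.mul_nonneg (sub_nonneg.2 ha1) (sub_nonneg.2 hb1)
    rw [sub_mul, mul_sub, mul_sub, hab, one_mul, one_mul, mul_one] at this
    rw [← sub_nonneg]
    convert this using 1
    abel
  have hae : a * e = a := by
    have h1 : e' * e = e' := by
      have := congrArg star h.fix_e
      rwa [star_mul, hs, h.selfAdjoint.star_eq] at this
    rw [ha, mul_assoc, h1]
  have hea : e * a = a := by rw [ha, ← mul_assoc, h.fix_e]
  have hve : star v * e = star v := by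
    have := congrArg star h.fix_v
    rwa [star_mul, h.selfAdjoint.star_eq] at this
  have hbe : b * e = b := by rw [hb, mul_assoc, hve]
  have heb : e * b = b := by
    rw [hb, ← mul_assoc, ← mul_assoc e v, h.fix_v]
  have := h.selfAdjoint.conjugate_le_conjugate hq
  rwa [mul_add, add_mul, hea, hae, heb, hbe, mul_one] at this

end Vale.Agent.P070
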