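import Mathlib
import Vale.Agent.P070.Tree
import Vale.Agent.P070.States

/-!
# A pure product state and the entangled tree state

For commuting subalgebras `B`, `C`: there is an extreme state which is multiplicative between
`B` and `C`; and two trees give positive norm-one elements `p n`, decreasing, whose common fixed
vectors are orthogonal to all product vectors.
-/

namespace Vale.Agent.P070

open scoped ComplexOrder InnerProductSpace
open Set

universe u

variable {A : Type u} [CStarAlgebra A]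

section Trees

variable {B C : StarSubalgebra ℂ A} (hcomm : ∀ b ∈ B, ∀ c ∈ C, b * c = c * b)
  {eB vB eC vC : ℕ → A}

/-- The entangling word sum. -/
noncomputable def W (vB vC : ℕ → A) (n : ℕ) : A := ∑ s, word vB n s * word vC n s

/-- `x n = W n * E n`. -/
noncomputable def X (eB vB eC vC : ℕ → A) (n : ℕ) : A := W vB vC n * (eB n * eC n)

/-- The projection-like element forcing maximal entanglement at level `n`. -/
noncomputable def P (eB vB eC vC : ℕ → A) (n : ℕ) : A :=
  ((2 : ℂ) ^ n)⁻¹ • (X eB vB eC vC n * star (X eB vB eC vC n))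

variable (hB : IsTree B eB vB) (hC : IsTree C eC vC)

include hcomm in
lemma swap4 {b b' c c' : A} (hb' : b' ∈ B) (hc : c ∈ C) : b * c * (b' * c') = b * b' * (c * c') := by
  rw [mul_assoc, ← mul_assoc c, ← hcomm b' hb' c hc]
  simp only [mul_assoc]

include hcomm hB hC in
lemma W_succ (n : ℕ) : W vB vC (n + 1) = W vB vC n * (1 + vB n * vC n) := by
  unfold W
  rw [sum_bool_snoc, Finset.sum_mul]
  refine Finset.sum_congr rfl fun s _ => ?_
  simp only [word_snoc, ↓reduceIte, Bool.false_eq_true, mul_one, mul_add]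
  rw [swap4 hcomm (hB.mem_v n) (word_mem hC.mem_v n s)]
  abel

include hcomm hB hC in
lemma facts (n : ℕ) :
    (eB n * eC n) * (vB n * vC n) = vB n * vC n ∧
    (eB n * eC n) * (eB (n + 1) * eC (n + 1)) = eB (n + 1) * eC (n + 1) ∧
    star (vB n * vC n) * (vB n * vC n) * (eB (n + 1) * eC (n + 1)) = eB (n + 1) * eC (n + 1) ∧
    (eB (n + 1) * eC (n + 1)) * (vB n * vC n) = 0 ∧
    IsSelfAdjoint (eB n * eC n) := by
  refine ⟨?_, ?_, ?_, ?_, ?_⟩
  · rw [swap4 hcomm (hB.mem_v n) (hC.mem n), (hB.step n).fix_v, (hC.step n).fix_v]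
  · rw [swap4 hcomm (hB.mem (n + 1)) (hC.mem n), (hB.step n).fix_e, (hC.step n).fix_e]
  · have h1 : star (vB n * vC n) = star (vB n) * star (vC n) := by
      rw [star_mul, ← hcomm _ (star_mem (hB.mem_v n)) _ (star_mem (hC.mem_v n))]
    rw [h1, swap4 hcomm (hB.mem_v n) (star_mem (hC.mem_v n)),
      swap4 hcomm (hB.mem (n + 1)) (mul_mem (star_mem (hC.mem_v n)) (hC.mem_v n)),
      (hB.step n).iso, (hC.step n).iso]
  · rw [swap4 hcomm (hB.mem_v n) (hC.mem (n + 1)), (hB.step n).orth, zero_mul]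
  · exact ((hB.step n).selfAdjoint.commute_iff (hC.step n).selfAdjoint).1
      (hcomm _ (hB.mem n) _ (hC.mem n))

omit [CStarAlgebra A] in
lemma absorb {R : Type*} [Ring R] {E u E' : R} (hu : E * u = u) (he : E * E' = E') :
    E * ((1 + u) * E') = (1 + u) * E' := by
  rw [add_mul, one_mul, mul_add, he, ← mul_assoc, hu]

include hcomm hB hC in
lemma X_succ (n : ℕ) :
    X eB vB eC vC (n + 1)
      = X eB vB eC vC n * ((1 + vB n * vC n) * (eB (n + 1) * eC (n + 1))) := by
  obtain ⟨hu, he, -, -, -⟩ := facts hcomm hB hC n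
  unfold X
  rw [W_succ hcomm hB hC, mul_assoc, mul_assoc (W vB vC n) (eB n * eC n), absorb hu he]

include hcomm hB hC in
lemma star_X_mul_X (n : ℕ) :
    star (X eB vB eC vC n) * X eB vB eC vC n
      = ((2 : ℂ) ^ n) • ((eB n * eC n) * (eB n * eC n)) := by
  induction n with
  | zero => simp [X, W, word, hB.zero, hC.zero]
  | succ n ih =>
    obtain ⟨hu, he, hiso, horth, -⟩ := facts hcomm hB hC n
    obtain ⟨-, -, -, -, hs'⟩ := facts hcomm hB hC (n + 1)
    rw [X_succ hcomm hB hC]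
    generalize X eB vB eC vC n = x at ih ⊢
    generalize vB n * vC n = u at *
    generalize eB n * eC n = E at *
    generalize eB (n + 1) * eC (n + 1) = E' at *
    have h3 : star u * E' = 0 := by
      have := congrArg star horth
      rwa [star_mul, star_zero, hs'.star_eq] at this
    calc star (x * ((1 + u) * E')) * (x * ((1 + u) * E'))
        = E' * star (1 + u) * ((star x * x) * ((1 + u) * E')) := by
          rw [star_mul, star_mul, hs'.star_eq]; simp only [mul_assoc]
      _ = ((2 : ℂ) ^ n) • (E' * star (1 + u) * ((1 + u) * E')) := by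
          rw [ih, smul_mul_assoc, mul_smul_comm, mul_assoc E E, absorb hu he, absorb hu he]
      _ = ((2 : ℂ) ^ n) • ((2 : ℂ) • (E' * E')) := by
          congr 1
          rw [star_add, star_one]
          simp only [mul_add, add_mul, mul_one, one_mul, mul_assoc]
          rw [← mul_assoc E' u, horth, zero_mul, h3, mul_zero, ← mul_assoc (star u) u, hiso,
            two_smul, add_zero, zero_add]
      _ = ((2 : ℂ) ^ (n + 1)) • (E' * E') := by rw [smul_smul, pow_succ]

include hcomm hB hC in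
lemma X_succ_fix (n : ℕ) :
    P eB vB eC vC n * P eB vB eC vC (n + 1) = P eB vB eC vC (n + 1) := by
  obtain ⟨hu, he, -, -, -⟩ := facts hcomm hB hC n
  have hxx := star_X_mul_X hcomm hB hC n
  have h1 := X_succ hcomm hB hC n
  unfold P
  generalize X eB vB eC vC (n + 1) = y at h1 ⊢
  generalize X eB vB eC vC n = x at hxx h1 ⊢
  have h2 : x * star x * y = ((2 : ℂ) ^ n) • y := by
    rw [h1, mul_assoc x (star x), ← mul_assoc (star x) x, hxx, smul_mul_assoc, mul_smul_comm,
      mul_assoc (eB n * eC n), absorb hu he, absorb hu he]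
  rw [smul_mul_smul_comm, ← mul_assoc (x * star x), h2, smul_mul_assoc, smul_smul]
  congr 1
  field_simp

include hcomm in
lemma mul_ne_zero_of_mem [IsSimpleRing B] {b c : A} (hb : b ∈ B) (hc : c ∈ C) (hb0 : b ≠ 0)
    (hc0 : c ≠ 0) : b * c ≠ 0 := by
  intro h
  let I : TwoSidedIdeal B := TwoSidedIdeal.mk' {y : B | (y : A) * c = 0}
    (by simp)
    (by intro y y' h h'
        simp only [Set.mem_ofPred_eq, AddMemClass.coe_add] at h h' ⊢
        rw [add_mul, h, h', add_zero])
    (by intro y h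
        simp only [Set.mem_ofPred_eq, NegMemClass.coe_neg] at h ⊢
        rw [neg_mul, h, neg_zero])
    (by intro w y h
        simp only [Set.mem_ofPred_eq, MulMemClass.coe_mul] at h ⊢
        rw [mul_assoc, h, mul_zero])
    (by intro y w h
        simp only [Set.mem_ofPred_eq, MulMemClass.coe_mul] at h ⊢
        rw [mul_assoc, hcomm _ w.2 c hc, ← mul_assoc, h, zero_mul])
  have hbI : (⟨b, hb⟩ : B) ∈ I := by
    simp only [I, TwoSidedIdeal.mem_mk']
    exact h
  rcases eq_bot_or_eq_top I with hI | hI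
  · rw [hI, TwoSidedIdeal.mem_bot] at hbI
    exact hb0 (congrArg Subtype.val hbI)
  · have h1 : (1 : B) ∈ I := hI ▸ trivial
    simp only [I, TwoSidedIdeal.mem_mk'] at h1
    exact hc0 (by simpa using h1)

include hcomm hB hC in
lemma norm_P_le (n : ℕ) : ‖P eB vB eC vC n‖ ≤ 1 := by
  have key : ∀ m, ‖eB m‖ ≤ 1 ∧ ‖eC m‖ ≤ 1 := by
    intro m
    cases m with
    | zero =>
      rw [hB.zero, hC.zero]
      rcases subsingleton_or_nontrivial A with h | h
      · simp [Subsingleton.elim (1 : A) 0]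
      · simp
    | succ m => exact ⟨(hB.step m).norm_le', (hC.step m).norm_le'⟩
  have hE : ‖(eB n * eC n) * (eB n * eC n)‖ ≤ 1 := by
    have h1 : ‖eB n * eC n‖ ≤ 1 := (norm_mul_le _ _).trans
      (by nlinarith [norm_nonneg (eB n), norm_nonneg (eC n), (key n).1, (key n).2])
    exact (norm_mul_le _ _).trans (by nlinarith [norm_nonneg (eB n * eC n)])
  unfold P
  rw [norm_smul, CStarRing.norm_self_mul_star, ← CStarRing.norm_star_mul_self,
    star_X_mul_X hcomm hB hC, norm_smul, norm_inv, norm_pow, Complex.norm_ofNat,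
    inv_mul_cancel_left₀ (by positivity)]
  exact hE

include hcomm hB hC in
lemma P_ne_zero [IsSimpleRing B] (n : ℕ) : P eB vB eC vC n ≠ 0 := by
  obtain ⟨-, -, -, -, hs⟩ := facts hcomm hB hC n
  unfold P
  refine smul_ne_zero (inv_ne_zero (pow_ne_zero _ two_ne_zero)) fun h => ?_
  have h1 : X eB vB eC vC n = 0 := (CStarRing.mul_star_self_eq_zero_iff _).1 h
  have h2 := star_X_mul_X hcomm hB hC n
  rw [h1, mul_zero] at h2
  have h3 := (smul_eq_zero.1 h2.symm).resolve_left (pow_ne_zero _ two_ne_zero)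
  refine mul_ne_zero_of_mem hcomm (hB.mem n) (hC.mem n) (hB.ne n) (hC.ne n) ?_
  have h4 : star (eB n * eC n) * (eB n * eC n) = 0 := by rw [hs.star_eq]; exact h3
  exact (CStarRing.star_mul_self_eq_zero_iff _).1 h4

variable [PartialOrder A] [StarOrderedRing A]
  {H : Type u} [NormedAddCommGroup H] [InnerProductSpace ℂ H] [CompleteSpace H]
  (π : A →⋆ₐ[ℂ] (H →L[ℂ] H))

omit [PartialOrder A] [StarOrderedRing A] in
lemma norm_sq_map (y : A) (φ : H) : ‖π y φ‖ ^ 2 = (⟪φ, π (star y * y) φ⟫_ℂ).re := by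
  rw [map_mul, map_star, ContinuousLinearMap.star_eq_adjoint, mul_apply_eq_comp,
    ContinuousLinearMap.adjoint_inner_right, inner_self_eq_norm_sq_to_K]
  simp [← Complex.ofReal_pow]

lemma re_inner_mono {a b : A} (h : a ≤ b) (φ : H) :
    (⟪φ, π a φ⟫_ℂ).re ≤ (⟪φ, π b φ⟫_ℂ).re := by
  have hd : 0 ≤ b - a := sub_nonneg.2 h
  have hs : IsSelfAdjoint (CFC.sqrt (b - a)) := .of_nonneg (CFC.sqrt_nonneg _)
  have h1 := sq_nonneg ‖π (CFC.sqrt (b - a)) φ‖
  rw [norm_sq_map, hs.star_eq, CFC.sqrt_mul_sqrt_self _ hd, map_sub] at h1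
  simp at h1
  linarith

lemma column_bound {D : StarSubalgebra ℂ A} {e v : ℕ → A} (hD : IsTree D e v) (φ : H) :
    ∀ n, ∑ s, ‖π (e n * star (word v n s)) φ‖ ^ 2 ≤ ‖φ‖ ^ 2
  | 0 => by simp [word, hD.zero]
  | n + 1 => by
    refine le_trans ?_ (column_bound hD φ n)
    rw [sum_bool_snoc]
    refine Finset.sum_le_sum fun s _ => ?_
    simp only [word_snoc, ↓reduceIte, Bool.false_eq_true, mul_one, star_mul, map_mul,
      mul_apply_eq_comp]
    set φ' := π (star (word v n s)) φ
    have h := re_inner_mono π (hD.step n).le_sq φ'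
    have e1 := norm_sq_map π (e (n + 1)) φ'
    have e2 := norm_sq_map π (e (n + 1) * star (v n)) φ'
    have e3 := norm_sq_map π (e n) φ'
    rw [(hD.step n).selfAdjoint'.star_eq] at e1
    rw [star_mul, star_star, (hD.step n).selfAdjoint'.star_eq] at e2
    rw [(hD.step n).selfAdjoint.star_eq] at e3
    simp only [map_add, map_mul, map_star, mul_apply_eq_comp,
      add_apply, inner_add_right, Complex.add_re] at h e1 e2 e3 ⊢
    linarith

include hcomm hB hC in
/-- A vector fixed by every `P n` is orthogonal to every product vector. -/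
lemma inner_eq_zero_of_product {ψ η : H}
    (hprod : ∀ b ∈ B, ∀ c ∈ C, ‖π (b * c) ψ‖ * ‖ψ‖ = ‖π b ψ‖ * ‖π c ψ‖)
    (hfix : ∀ n, π (P eB vB eC vC n) η = η) : ⟪ψ, η⟫_ℂ = 0 := by
  rcases eq_or_ne ψ 0 with rfl | hψ
  · exact inner_zero_left _
  have hψ' : 0 < ‖ψ‖ := norm_pos_iff.2 hψ
  have key : ∀ n, (2 : ℝ) ^ n * ‖⟪ψ, η⟫_ℂ‖ ^ 2 ≤ ‖ψ‖ ^ 2 * ‖η‖ ^ 2 := by
    intro n
    set x := X eB vB eC vC n with hx
    have hxψ : ‖π (star x) ψ‖ ≤ ‖ψ‖ := by
      refine le_of_mul_le_mul_right ?_ hψ'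
      obtain ⟨-, -, -, -, hs⟩ := facts hcomm hB hC n
      have hstar : star x = ∑ s, (eB n * star (word vB n s)) * (eC n * star (word vC n s)) := by
        rw [hx]
        unfold X W
        rw [star_mul, hs.star_eq, star_sum, Finset.mul_sum]
        refine Finset.sum_congr rfl fun s _ => ?_
        rw [star_mul, ← hcomm _ (star_mem (word_mem hB.mem_v n s)) _
          (star_mem (word_mem hC.mem_v n s)),
          swap4 hcomm (star_mem (word_mem hB.mem_v n s)) (hC.mem n)]
      have hb := column_bound π hB ψ n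
      have hc := column_bound π hC ψ n
      rw [hstar, map_sum, sum_apply]
      refine (mul_le_mul_of_nonneg_right (norm_sum_le _ _) hψ'.le).trans ?_
      rw [Finset.sum_mul]
      refine (Finset.sum_le_sum (g := fun s => (‖π (eB n * star (word vB n s)) ψ‖ ^ 2
        + ‖π (eC n * star (word vC n s)) ψ‖ ^ 2) / 2) fun s _ => ?_).trans ?_
      · rw [hprod _ (mul_mem (hB.mem n) (star_mem (word_mem hB.mem_v n s))) _
          (mul_mem (hC.mem n) (star_mem (word_mem hC.mem_v n s)))]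
        nlinarith [sq_nonneg (‖π (eB n * star (word vB n s)) ψ‖
          - ‖π (eC n * star (word vC n s)) ψ‖)]
      · rw [← Finset.sum_div, Finset.sum_add_distrib]
        nlinarith
    have hP : ∀ φ : H, ⟪φ, π (P eB vB eC vC n) η⟫_ℂ
        = ((2 : ℂ) ^ n)⁻¹ * ⟪π (star x) φ, π (star x) η⟫_ℂ := by
      intro φ
      unfold P
      rw [map_smul, smul_apply, inner_smul_right, map_mul,
        mul_apply_eq_comp, ← hx]
      congr 1
      rw [map_star π x, ContinuousLinearMap.star_eq_adjoint,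
        ContinuousLinearMap.adjoint_inner_left]
    have hη : (2 : ℝ) ^ n * ‖η‖ ^ 2 = ‖π (star x) η‖ ^ 2 := by
      have := hP η
      rw [hfix, inner_self_eq_norm_sq_to_K, inner_self_eq_norm_sq_to_K,
        eq_inv_mul_iff_mul_eq₀ (pow_ne_zero _ two_ne_zero)] at this
      apply Complex.ofReal_injective
      simpa using this
    have h1 : (2 : ℝ) ^ n * ‖⟪ψ, η⟫_ℂ‖ ≤ ‖ψ‖ * ‖π (star x) η‖ := by
      have := hP ψ
      rw [hfix, eq_inv_mul_iff_mul_eq₀ (pow_ne_zero _ two_ne_zero)] at this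
      have h2 := congrArg norm this
      rw [norm_mul, norm_pow, Complex.norm_ofNat] at h2
      rw [h2]
      exact (norm_inner_le_norm _ _).trans
        (mul_le_mul_of_nonneg_right hxψ (norm_nonneg _))
    have h3 := mul_self_le_mul_self (by positivity) h1
    have h2n : (0 : ℝ) < 2 ^ n := by positivity
    refine le_of_mul_le_mul_left ?_ h2n
    calc (2 : ℝ) ^ n * ((2 : ℝ) ^ n * ‖⟪ψ, η⟫_ℂ‖ ^ 2)
        = ((2 : ℝ) ^ n * ‖⟪ψ, η⟫_ℂ‖) * ((2 : ℝ) ^ n * ‖⟪ψ, η⟫_ℂ‖) := by ring
      _ ≤ (‖ψ‖ * ‖π (star x) η‖) * (‖ψ‖ * ‖π (star x) η‖) := h3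
      _ = ‖ψ‖ ^ 2 * ‖π (star x) η‖ ^ 2 := by ring
      _ = (2 : ℝ) ^ n * (‖ψ‖ ^ 2 * ‖η‖ ^ 2) := by rw [← hη]; ring
  by_contra hne
  have hpos : 0 < ‖⟪ψ, η⟫_ℂ‖ ^ 2 := pow_pos (norm_pos_iff.2 hne) 2
  obtain ⟨n, hn⟩ := pow_unbounded_of_one_lt (‖ψ‖ ^ 2 * ‖η‖ ^ 2 / ‖⟪ψ, η⟫_ℂ‖ ^ 2)
    (one_lt_two (α := ℝ))
  have := key n
  rw [div_lt_iff₀ hpos] at hn
  linarith

end Trees

section ProductState

variable [PartialOrder A] [StarOrderedRing A] [Nontrivial A]

omit [PartialOrder A] [StarOrderedRing A] in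
lemma states_nonempty : (states A).Nonempty := by
  obtain ⟨f, hf, -⟩ := exists_state_eq_one (A := A) (p := 1) norm_one.le (by
    rw [show (1 : A) + 1 = (2 : ℂ) • 1 by rw [two_smul], norm_smul, norm_one]
    simp)
  exact ⟨f, hf⟩

/-- An extreme state that is multiplicative between two commuting subalgebras. -/
theorem exists_product_state (B C : StarSubalgebra ℂ A)
    (hcomm : ∀ b ∈ B, ∀ c ∈ C, b * c = c * b) :
    ∃ f ∈ (states A).extremePoints ℝ, ∀ b ∈ B, ∀ c ∈ C, f (b * c) = f b * f c := by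
  let R : (A → ℂ) → (B → ℂ) := fun f b => f b
  have hRc : Continuous R := by fun_prop
  obtain ⟨r, hr⟩ := ((isCompact_states (A := A)).image hRc).extremePoints_nonempty
    (states_nonempty.image R)
  set F := states A ∩ {f | R f = r} with hFdef
  have hF : IsExtreme ℝ (states A) F := by
    refine ⟨inter_subset_left, ?_⟩
    rintro g hg g' hg' f ⟨-, hf⟩ ⟨a, b, ha, hb, hab, rfl⟩
    refine ⟨hg, ?_⟩
    refine (mem_extremePoints_iff_left.1 hr).2 _ ⟨g, hg, rfl⟩ _ ⟨g', hg', rfl⟩
      ⟨a, b, ha, hb, hab, ?_⟩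
    funext x
    exact congrFun hf x
  have hFne : F.Nonempty := by
    obtain ⟨g, hg, hgr⟩ := (mem_extremePoints_iff_left.1 hr).1
    exact ⟨g, hg, hgr⟩
  obtain ⟨f, hf⟩ := ((isCompact_states (A := A)).inter_right
    (isClosed_eq hRc continuous_const)).extremePoints_nonempty hFne
  have hfS := hF.extremePoints_subset_extremePoints hf
  have hfF : R f = r := hf.1.2
  refine ⟨f, hfS, ?_⟩
  obtain ⟨hadd, hsmul, h1, -⟩ := hfS.1
  set π := (toPos hfS.1).gnsStarAlgHom with hπ
  set Ω := cyc hfS.1 with hΩ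
  have hvec : ∀ s : A, IsSelfAdjoint s → ∀ y,
      ⟪π s Ω, π y (π s Ω)⟫_ℂ = f (s * y * s) := by
    intro s hs y
    rw [← mul_apply_eq_comp, ← map_mul, hπ, hΩ, inner_gns, hs.star_eq, mul_assoc]
  -- the identity for `0 ≤ c ≤ 1`
  have h01 : ∀ c ∈ C, 0 ≤ c → c ≤ 1 → ∀ b ∈ B, f (b * c) = f b * f c := by
    intro c hc hc0 hc1 b hb
    set s := cfc Real.sqrt c with hs
    set s' := cfc Real.sqrt (1 - c) with hs'
    have hsa : IsSelfAdjoint s := cfc_predicate _ _
    have hsa' : IsSelfAdjoint s' := cfc_predicate _ _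
    have hsq : ∀ d : A, 0 ≤ d → cfc Real.sqrt d * cfc Real.sqrt d = d := by
      intro d hd
      have hd' : IsSelfAdjoint d := .of_nonneg hd
      rw [← cfc_mul Real.sqrt Real.sqrt d]
      conv_rhs => rw [← cfc_id' ℝ d]
      exact cfc_congr fun t ht => Real.mul_self_sqrt (spectrum_nonneg_of_nonneg hd ht)
    have hss : ∀ y ∈ B, s * y * s = y * c ∧ s' * y * s' = y - y * c := by
      intro y hy
      have h2 : Commute c y := (hcomm y hy c hc).symm
      have h3 : Commute (1 - c) y := (Commute.one_left y).sub_left h2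
      refine ⟨?_, ?_⟩
      · rw [hs, (h2.cfc_real _).eq, mul_assoc, hsq c hc0]
      · rw [hs', (h3.cfc_real _).eq, mul_assoc, hsq _ (sub_nonneg.2 hc1), mul_sub, mul_one]
    have hsub : ∀ y, f (y - y * c) = f y - f (y * c) := fun y => by
      rw [sub_eq_add_neg, hadd, ← neg_one_smul ℂ, hsmul]; ring
    have e1 : ∀ y ∈ B, ⟪π s Ω, π y (π s Ω)⟫_ℂ = f (y * c) := fun y hy => by
      rw [hvec s hsa, (hss y hy).1]
    have e2 : ∀ y ∈ B, ⟪π s' Ω, π y (π s' Ω)⟫_ℂ = f y - f (y * c) := fun y hy => by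
      rw [hvec s' hsa', (hss y hy).2, hsub]
    have n1 : ((‖π s Ω‖ ^ 2 : ℝ) : ℂ) = f c := by
      have := e1 1 (one_mem B)
      rw [map_one, one_apply_eq_self, inner_self_eq_norm_sq_to_K, one_mul] at this
      simpa using this
    have n2 : ((‖π s' Ω‖ ^ 2 : ℝ) : ℂ) = 1 - f c := by
      have := e2 1 (one_mem B)
      rw [map_one, one_apply_eq_self, inner_self_eq_norm_sq_to_K, h1, one_mul] at this
      simpa using this
    set x := π s Ω with hx
    set x' := π s' Ω with hx'
    rcases eq_or_ne x 0 with h0 | h0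
    · have hc' : f c = 0 := by rw [← n1, h0]; simp
      rw [← e1 b hb, h0, hc']; simp
    rcases eq_or_ne x' 0 with h0' | h0'
    · have hc' : f c = 1 := by
        have : (1 : ℂ) - f c = 0 := by rw [← n2, h0']; simp
        linear_combination -this
      have := e2 b hb
      rw [h0'] at this
      simp at this
      rw [hc', mul_one]
      linear_combination this
    have hscale : ∀ (z : (toPos hfS.1).GNS) (y : A), z ≠ 0 →
        ((‖z‖ ^ 2 : ℝ) : ℂ) * ⟪((‖z‖⁻¹ : ℝ) : ℂ) • z, π y (((‖z‖⁻¹ : ℝ) : ℂ) • z)⟫_ℂ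
          = ⟪z, π y z⟫_ℂ := by
      intro z y hz
      rw [map_smul, inner_smul_left, inner_smul_right, Complex.conj_ofReal, Complex.ofReal_pow,
        Complex.ofReal_inv]
      have : ((‖z‖ : ℝ) : ℂ) ≠ 0 := by exact_mod_cast norm_ne_zero_iff.2 hz
      field_simp
    have hunit : ∀ z : (toPos hfS.1).GNS, z ≠ 0 → ‖((‖z‖⁻¹ : ℝ) : ℂ) • z‖ = 1 := fun z hz => by
      rw [norm_smul, Complex.norm_real, norm_inv, norm_norm,
        inv_mul_cancel₀ (norm_ne_zero_iff.2 hz)]
    have hsum : ‖x‖ ^ 2 + ‖x'‖ ^ 2 = 1 := by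
      have : ((‖x‖ ^ 2 + ‖x'‖ ^ 2 : ℝ) : ℂ) = 1 := by
        rw [Complex.ofReal_add, n1, n2]; ring
      exact_mod_cast this
    have heq := (mem_extremePoints_iff_left.1 hr).2
      _ ⟨_, vectorState_mem π (hunit x h0), rfl⟩ _ ⟨_, vectorState_mem π (hunit x' h0'), rfl⟩
      ⟨‖x‖ ^ 2, ‖x'‖ ^ 2, by positivity, by positivity, hsum, by
        funext y
        rw [← hfF]
        simp only [R, Pi.add_apply, Pi.smul_apply, Complex.real_smul]
        rw [hscale x _ h0, hscale x' _ h0', e1 _ y.2, e2 _ y.2]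
        ring⟩
    have h4 := congrFun heq ⟨b, hb⟩
    rw [← hfF] at h4
    simp only [R] at h4
    rw [← e1 b hb, ← n1, ← hscale x b h0, h4]
    ring
  intro b hb c hc
  -- self-adjoint elements, then all
  have hsa : ∀ d ∈ C, IsSelfAdjoint d → f (b * d) = f b * f d := by
    intro d hd hds
    set M : ℝ := ‖d‖ + 1 with hM
    have hMpos : 0 < M := by positivity
    have hle : d ≤ (M : ℂ) • (1 : A) ∧ -((M : ℂ) • (1 : A)) ≤ d := by
      have hmono : algebraMap ℝ A ‖d‖ ≤ (M : ℂ) • (1 : A) := by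
        rw [Complex.coe_smul, ← Algebra.algebraMap_eq_smul_one]
        exact algebraMap_mono A (by rw [hM]; linarith)
      refine ⟨(IsSelfAdjoint.le_algebraMap_norm_self hds).trans hmono,
        neg_le.1 ((IsSelfAdjoint.le_algebraMap_norm_self hds.neg).trans ?_)⟩
      rw [norm_neg]; exact hmono
    set c' := ((2 * M)⁻¹ : ℝ) • (d + (M : ℂ) • (1 : A)) with hc'
    have hc'C : c' ∈ C := by
      rw [hc', ← Complex.coe_smul]
      exact SMulMemClass.smul_mem _ (add_mem hd (SMulMemClass.smul_mem _ (one_mem C)))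
    have h0 : 0 ≤ c' := smul_nonneg (by positivity) (by
      have := add_le_add hle.2 (le_refl ((M : ℂ) • (1 : A)))
      simpa using this)
    have h2 : c' ≤ 1 := by
      have h3 : d + (M : ℂ) • (1 : A) ≤ (2 * M) • (1 : A) := by
        refine (add_le_add hle.1 le_rfl).trans (le_of_eq ?_)
        rw [Complex.coe_smul, ← add_smul]; congr 1; ring
      refine (smul_le_smul_of_nonneg_left h3 (by positivity)).trans (le_of_eq ?_)
      rw [inv_smul_smul₀ (by positivity)]
    have := h01 c' hc'C h0 h2 b hb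
    rw [hc', ← Complex.coe_smul, mul_smul_comm, hsmul, hsmul, mul_add b, hadd, hadd,
      mul_smul_comm, hsmul, hsmul, mul_one, h1] at this
    have hne : ((((2 * M)⁻¹ : ℝ)) : ℂ) ≠ 0 := by exact_mod_cast (by positivity : (2 * M)⁻¹ ≠ 0)
    have h5 := mul_left_cancel₀ hne (this.trans (mul_left_comm _ _ _))
    linear_combination h5
  have hre : (realPart c : A) ∈ C := by
    rw [realPart_apply_coe, ← Complex.coe_smul]
    exact SMulMemClass.smul_mem _ (add_mem hc (star_mem hc))
  have him : (imaginaryPart c : A) ∈ C := by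
    rw [imaginaryPart_apply_coe, ← Complex.coe_smul]
    exact SMulMemClass.smul_mem _ (SMulMemClass.smul_mem _ (sub_mem hc (star_mem hc)))
  rw [← realPart_add_I_smul_imaginaryPart c, mul_add, mul_smul_comm, hadd, hadd, hsmul, hsmul,
    hsa _ hre (realPart c).2, hsa _ him (imaginaryPart c).2]
  ring

end ProductState

end Vale.Agent.P070
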